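import Mathlib
import Vale.Agent.Lib.P328.RP.BoxGlue

/-!
P328: the nested-slice (triangular) certificate on the box, existence part.

For a box `c : Fin n → ℕ`, a level `q`, a colour function `φ` and a frame `R`, `S` with
`card (Lev c q) * R + card (Lev c (q + 1)) * S = boxMass c q φ` (the total colour mass of the
edges), the certificate is built by recursion on the number of columns: slice `t = {u 0 = t}`
gets the frame `frR t`, `frS t` given by the forward recursion

  `frS 0 = S`,  `a t * frR t + b t * frS t = (mass of slice t)`,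
  `frS (t + 1) = S - φ 0 + R - frR t`,

and the edges of colour `0` leaving slice `t` carry `Z1 = R - frR t`.  The mass balance shows
that the frames close up.  The cross term of the certificate is the explicit real number
`Wtri n c q φ R S` (defined by the same recursion).

* `boxCertGe_cons_of_nonempty` : the gluing lemma with the frame conditions required only
  for nonempty slices.
* `boxMass`, `boxMass_succ`, `Tri.frS`, `Tri.frR`, `Tri.slice_compat`, `Tri.cum`.
* `Wtri`, `boxCertGe_tri`, `threeRow_of_tri`.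
-/

namespace Vale.Agent.Lib.P328.RP

open Finset
open Vale.Agent.Lib.P335.Bip

/-- total colour mass of the edges of the box at level `q` -/
noncomputable def boxMass {n : ℕ} (c : Fin n → ℕ) (q : ℕ) (φ : Fin n → ℝ) : ℝ :=
  ∑ u ∈ Lev c q, ∑ j ∈ univ.filter (fun j => u j < c j), φ j

/-- an empty level has an empty next level -/
theorem Lev_succ_empty {n : ℕ} (c : Fin n → ℕ) (q : ℕ) (h : Lev c q = ∅) :
    Lev c (q + 1) = ∅ := by
  classical
  rw [Finset.eq_empty_iff_forall_notMem] at h ⊢
  intro y hy
  rw [mem_Lev] at hy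
  obtain ⟨hle, hsum⟩ := hy
  have hex : ∃ j, 1 ≤ y j := by
    by_contra hcon
    have hz : ∀ j, y j = 0 := by
      intro j
      have := (not_exists.mp hcon) j
      omega
    rw [Finset.sum_eq_zero (fun j _ => hz j)] at hsum
    omega
  obtain ⟨j, hj⟩ := hex
  apply h (Function.update y j (y j - 1))
  rw [mem_Lev]
  constructor
  · intro l
    by_cases hl : l = j
    · subst hl
      rw [Function.update_self]
      have := hle l
      omega
    · rw [Function.update_of_ne hl]
      exact hle l
  · have h2 : y j + ∑ x ∈ univ \ {j}, y x = ∑ x, y x := by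
      rw [Finset.sdiff_singleton_eq_erase]
      exact Finset.add_sum_erase univ y (Finset.mem_univ j)
    rw [Finset.sum_update_of_mem (Finset.mem_univ j)]
    omega

/-- level `0` is a single vertex -/
theorem card_Lev_zero {n : ℕ} (c : Fin n → ℕ) : (Lev c 0).card = 1 := by
  rw [Finset.card_eq_one]
  refine ⟨fun _ => 0, ?_⟩
  ext u
  rw [mem_Lev, Finset.mem_singleton]
  constructor
  · rintro ⟨_, hsum⟩
    funext j
    exact (Finset.sum_eq_zero_iff.mp hsum) j (Finset.mem_univ j)
  · rintro rfl
    exact ⟨fun j => Nat.zero_le _, Finset.sum_const_zero⟩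

/-- slicing the edge mass along the first coordinate -/
theorem boxMass_succ {n : ℕ} (c : Fin (n + 1) → ℕ) (q : ℕ) (φ : Fin (n + 1) → ℝ) :
    boxMass c q φ = ∑ t ∈ Finset.range (c 0 + 1), if t ≤ q then
      (boxMass (Fin.tail c) (q - t) (Fin.tail φ)
        + if t < c 0 then ((Lev (Fin.tail c) (q - t)).card : ℝ) * φ 0 else 0) else 0 := by
  classical
  unfold boxMass
  rw [sum_Lev_succ]
  apply Finset.sum_congr rfl
  intro t _
  by_cases htq : t ≤ q
  swap
  · rw [if_neg htq, if_neg htq]
  rw [if_pos htq, if_pos htq]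
  have hterm : ∀ u' ∈ Lev (Fin.tail c) (q - t),
      ∑ j ∈ univ.filter (fun j : Fin (n + 1) => (Fin.cons t u' : Fin (n + 1) → ℕ) j < c j),
        φ j
      = (if t < c 0 then φ 0 else 0)
        + ∑ i ∈ univ.filter (fun i : Fin n => u' i < Fin.tail c i), Fin.tail φ i := by
    intro u' _
    rw [BoxGlue.sum_filter_succ]
    simp only [Fin.cons_zero, Fin.cons_succ]
    rfl
  rw [Finset.sum_congr rfl hterm, Finset.sum_add_distrib, Finset.sum_const, nsmul_eq_mul]
  by_cases htlt : t < c 0
  · rw [if_pos htlt, if_pos htlt]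
    ring
  · rw [if_neg htlt, if_neg htlt]
    ring

/-- **Gluing slices**, with the frame conditions required only where the slices are
nonempty. -/
theorem boxCertGe_cons_of_nonempty {n : ℕ} (c : Fin (n + 1) → ℕ) (q : ℕ)
    (φ : Fin (n + 1) → ℝ) (R S : ℝ) (ξ Rt St Wt : ℕ → ℝ)
    (hR : ∀ t, t < c 0 → t ≤ q → Rt t = R - ξ t)
    (hRc : c 0 ≤ q → (Lev (Fin.tail c) (q - c 0)).Nonempty → Rt (c 0) = R)
    (hS0 : (Lev (Fin.tail c) (q + 1)).Nonempty → St 0 = S)
    (hS : ∀ t, t < c 0 → t + 1 ≤ q → (Lev (Fin.tail c) (q - t)).Nonempty →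
      St (t + 1) = S - (φ 0 - ξ t))
    (hSq : q < c 0 → φ 0 - ξ q = S)
    (hslice : ∀ t, t ≤ c 0 → t ≤ q →
      BoxCertGe (Fin.tail c) (q - t) (Fin.tail φ) (Rt t) (St t) (Wt t)) :
    BoxCertGe c q φ R S
      (∑ t ∈ Finset.range (c 0 + 1), (if t ≤ q then Wt t else 0)
        + ∑ t ∈ Finset.range (c 0),
            (if t ≤ q then ((Lev (Fin.tail c) (q - t)).card : ℝ) * (ξ t * (φ 0 - ξ t))
              else 0)) := by
  classical
  choose! Z1t Z2t hZ using hslice
  refine ⟨fun u j => Fin.cases (ξ (u 0)) (fun i => Z1t (u 0) (Fin.tail u) i) j,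
    fun u j => Fin.cases (φ 0 - ξ (u 0)) (fun i => Z2t (u 0) (Fin.tail u) i) j,
    ?_, ?_, ?_, ?_⟩
  · intro u hu j
    obtain ⟨h0c, h0q, htail⟩ := BoxGlue.tail_mem hu
    refine Fin.cases ?_ (fun i => ?_) j
    · intro _
      show ξ (u 0) + (φ 0 - ξ (u 0)) = φ 0
      ring
    · intro hi
      show Z1t (u 0) (Fin.tail u) i + Z2t (u 0) (Fin.tail u) i = φ i.succ
      exact (hZ (u 0) h0c h0q).1 (Fin.tail u) htail i hi
  · intro u hu
    obtain ⟨h0c, h0q, htail⟩ := BoxGlue.tail_mem hu
    rw [BoxGlue.sum_filter_succ]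
    have h2 : ∑ i ∈ univ.filter (fun i : Fin n => u i.succ < c i.succ),
        (Fin.cases (ξ (u 0)) (fun i => Z1t (u 0) (Fin.tail u) i) i.succ : ℝ)
        = Rt (u 0) := (hZ (u 0) h0c h0q).2.1 (Fin.tail u) htail
    rw [h2]
    by_cases h0 : u 0 < c 0
    · rw [if_pos h0, hR (u 0) h0 h0q]
      show ξ (u 0) + (R - ξ (u 0)) = R
      ring
    · rw [if_neg h0]
      have h0e : u 0 = c 0 := le_antisymm h0c (not_lt.mp h0)
      have hne : (Lev (Fin.tail c) (q - c 0)).Nonempty := ⟨Fin.tail u, h0e ▸ htail⟩
      rw [h0e, hRc (h0e ▸ h0q) hne]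
      ring
  · intro y hy
    obtain ⟨h0c, h0q, htail⟩ := BoxGlue.tail_mem hy
    rw [BoxGlue.sum_filter_succ]
    have hpart : ∑ i ∈ univ.filter (fun i : Fin n => 1 ≤ y i.succ),
        (Fin.cases (φ 0 - ξ (Function.update y i.succ (y i.succ - 1) 0))
          (fun l => Z2t (Function.update y i.succ (y i.succ - 1) 0)
            (Fin.tail (Function.update y i.succ (y i.succ - 1))) l) i.succ : ℝ)
        = ∑ i ∈ univ.filter (fun i : Fin n => 1 ≤ Fin.tail y i),
          Z2t (y 0) (Function.update (Fin.tail y) i (Fin.tail y i - 1)) i := by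
      apply Finset.sum_congr rfl
      intro i _
      show Z2t (Function.update y i.succ (y i.succ - 1) 0)
        (Fin.tail (Function.update y i.succ (y i.succ - 1))) i = _
      rw [BoxGlue.update_succ_zero, BoxGlue.tail_update_succ]
      rfl
    rw [hpart]
    have hslicesum : y 0 ≤ q → ∑ i ∈ univ.filter (fun i : Fin n => 1 ≤ Fin.tail y i),
        Z2t (y 0) (Function.update (Fin.tail y) i (Fin.tail y i - 1)) i = St (y 0) := by
      intro hq
      have ht2 : Fin.tail y ∈ Lev (Fin.tail c) (q - y 0 + 1) := by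
        have : q + 1 - y 0 = q - y 0 + 1 := by omega
        rw [← this]
        exact htail
      exact (hZ (y 0) h0c hq).2.2.1 (Fin.tail y) ht2
    by_cases hy0 : 1 ≤ y 0
    · rw [if_pos hy0]
      show (φ 0 - ξ (Function.update y 0 (y 0 - 1) 0)) + _ = S
      rw [Function.update_self]
      have hs1 : y 0 - 1 < c 0 := by omega
      have hy1 : y 0 - 1 + 1 = y 0 := by omega
      by_cases hq : y 0 ≤ q
      · rw [hslicesum hq]
        have hne : (Lev (Fin.tail c) (q - (y 0 - 1))).Nonempty := by
          refine ⟨Fin.tail y, ?_⟩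
          have : q + 1 - y 0 = q - (y 0 - 1) := by omega
          rw [← this]
          exact htail
        have h3 := hS (y 0 - 1) hs1 (by omega) hne
        rw [hy1] at h3
        rw [h3]
        ring
      · have hq1 : q + 1 - y 0 = 0 := by omega
        rw [hq1, mem_Lev] at htail
        have hz : ∀ i, Fin.tail y i = 0 := by
          intro i
          exact (Finset.sum_eq_zero_iff.mp htail.2) i (Finset.mem_univ i)
        have hzero : ∑ i ∈ univ.filter (fun i : Fin n => 1 ≤ Fin.tail y i),
            Z2t (y 0) (Function.update (Fin.tail y) i (Fin.tail y i - 1)) i = 0 := by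
          apply Finset.sum_eq_zero
          intro i hi
          have := (Finset.mem_filter.mp hi).2
          rw [hz i] at this
          omega
        rw [hzero, add_zero]
        have hyq : y 0 - 1 = q := by omega
        rw [hyq]
        exact hSq (by omega)
    · rw [if_neg hy0, zero_add]
      have hy00 : y 0 = 0 := by omega
      have hne : (Lev (Fin.tail c) (q + 1)).Nonempty := by
        refine ⟨Fin.tail y, ?_⟩
        have : q + 1 - y 0 = q + 1 := by omega
        rw [← this]
        exact htail
      rw [hslicesum (by omega), hy00]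
      exact hS0 hne
  · rw [sum_Lev_succ]
    have hlast : ∑ t ∈ Finset.range (c 0),
          (if t ≤ q then ((Lev (Fin.tail c) (q - t)).card : ℝ) * (ξ t * (φ 0 - ξ t)) else 0)
        = ∑ t ∈ Finset.range (c 0 + 1),
          (if t ≤ q then (if t < c 0 then
            ((Lev (Fin.tail c) (q - t)).card : ℝ) * (ξ t * (φ 0 - ξ t)) else 0) else 0) := by
      rw [Finset.sum_range_succ, if_neg (lt_irrefl (c 0))]
      simp only [ite_self, add_zero]
      apply Finset.sum_congr rfl
      intro t ht
      rw [if_pos (Finset.mem_range.mp ht)]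
    rw [hlast, ← Finset.sum_add_distrib]
    apply Finset.sum_le_sum
    intro t ht
    have htc : t ≤ c 0 := Nat.lt_succ_iff.mp (Finset.mem_range.mp ht)
    by_cases htq : t ≤ q
    swap
    · rw [if_neg htq, if_neg htq, if_neg htq, add_zero]
    rw [if_pos htq, if_pos htq, if_pos htq]
    have hterm : ∀ u' ∈ Lev (Fin.tail c) (q - t),
        ∑ j ∈ univ.filter (fun j : Fin (n + 1) => (Fin.cons t u' : Fin (n + 1) → ℕ) j < c j),
          (Fin.cases (ξ ((Fin.cons t u' : Fin (n + 1) → ℕ) 0))
            (fun i => Z1t ((Fin.cons t u' : Fin (n + 1) → ℕ) 0)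
              (Fin.tail (Fin.cons t u' : Fin (n + 1) → ℕ)) i) j : ℝ)
          * (Fin.cases (φ 0 - ξ ((Fin.cons t u' : Fin (n + 1) → ℕ) 0))
            (fun i => Z2t ((Fin.cons t u' : Fin (n + 1) → ℕ) 0)
              (Fin.tail (Fin.cons t u' : Fin (n + 1) → ℕ)) i) j : ℝ)
        = (if t < c 0 then ξ t * (φ 0 - ξ t) else 0)
          + ∑ i ∈ univ.filter (fun i : Fin n => u' i < Fin.tail c i),
            Z1t t u' i * Z2t t u' i := by
      intro u' _
      rw [BoxGlue.sum_filter_succ]
      simp only [Fin.cons_zero, Fin.tail_cons, Fin.cons_succ, Fin.cases_zero, Fin.cases_succ]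
      rfl
    rw [Finset.sum_congr rfl hterm, Finset.sum_add_distrib, Finset.sum_const, nsmul_eq_mul]
    have hcross := (hZ t htc htq).2.2.2
    by_cases htlt : t < c 0
    · rw [if_pos htlt, if_pos htlt]
      linarith
    · rw [if_neg htlt, if_neg htlt, mul_zero]
      linarith

namespace Tri

/-- the upper frames of the slices (forward recursion) -/
noncomputable def frS {n : ℕ} (c : Fin (n + 1) → ℕ) (q : ℕ) (φ : Fin (n + 1) → ℝ)
    (R S : ℝ) : ℕ → ℝ
  | 0 => S
  | t + 1 => S - φ 0 + R -
      (boxMass (Fin.tail c) (q - t) (Fin.tail φ)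
        - ((Lev (Fin.tail c) (q - t + 1)).card : ℝ) * frS c q φ R S t)
      / ((Lev (Fin.tail c) (q - t)).card : ℝ)

/-- the lower frames of the slices -/
noncomputable def frR {n : ℕ} (c : Fin (n + 1) → ℕ) (q : ℕ) (φ : Fin (n + 1) → ℝ)
    (R S : ℝ) (t : ℕ) : ℝ :=
  (boxMass (Fin.tail c) (q - t) (Fin.tail φ)
      - ((Lev (Fin.tail c) (q - t + 1)).card : ℝ) * frS c q φ R S t)
    / ((Lev (Fin.tail c) (q - t)).card : ℝ)

variable {n : ℕ} (c : Fin (n + 1) → ℕ) (q : ℕ) (φ : Fin (n + 1) → ℝ) (R S : ℝ)

theorem frS_zero : frS c q φ R S 0 = S := rfl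

theorem frS_succ (t : ℕ) : frS c q φ R S (t + 1) = S - φ 0 + R - frR c q φ R S t := rfl

/-- every slice frame is compatible with the mass of the slice -/
theorem slice_compat (t : ℕ) :
    ((Lev (Fin.tail c) (q - t)).card : ℝ) * frR c q φ R S t
      + ((Lev (Fin.tail c) (q - t + 1)).card : ℝ) * frS c q φ R S t
      = boxMass (Fin.tail c) (q - t) (Fin.tail φ) := by
  by_cases ha : (Lev (Fin.tail c) (q - t)).card = 0
  · have h1 : Lev (Fin.tail c) (q - t) = ∅ := Finset.card_eq_zero.mp ha
    have h2 : Lev (Fin.tail c) (q - t + 1) = ∅ := Lev_succ_empty _ _ h1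
    unfold boxMass
    rw [h1, h2]
    simp
  · have ha' : ((Lev (Fin.tail c) (q - t)).card : ℝ) ≠ 0 := Nat.cast_ne_zero.mpr ha
    unfold frR
    field_simp
    ring

/-- cumulative mass balance up to slice `t` -/
theorem cum (t : ℕ) (ht : t ≤ q) :
    ((Lev (Fin.tail c) (q - t)).card : ℝ) * frR c q φ R S t
      + R * ∑ s ∈ Finset.range t, ((Lev (Fin.tail c) (q - s)).card : ℝ)
      + S * (((Lev (Fin.tail c) (q + 1)).card : ℝ)
          + ∑ s ∈ Finset.range t, ((Lev (Fin.tail c) (q - s)).card : ℝ))
      = ∑ s ∈ Finset.range (t + 1), boxMass (Fin.tail c) (q - s) (Fin.tail φ)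
        + φ 0 * ∑ s ∈ Finset.range t, ((Lev (Fin.tail c) (q - s)).card : ℝ) := by
  induction t with
  | zero =>
    have h := slice_compat c q φ R S 0
    rw [frS_zero] at h
    simp only [Nat.sub_zero] at h
    simp only [Finset.range_zero, Finset.sum_empty, zero_add, Finset.sum_range_one,
      Nat.sub_zero, mul_zero, add_zero]
    linarith
  | succ t ih =>
    have ih' := ih (by omega)
    have h := slice_compat c q φ R S (t + 1)
    have hb : q - (t + 1) + 1 = q - t := by omega
    rw [hb, frS_succ] at h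
    rw [Finset.sum_range_succ (fun s => ((Lev (Fin.tail c) (q - s)).card : ℝ)) t,
      Finset.sum_range_succ (fun s => boxMass (Fin.tail c) (q - s) (Fin.tail φ)) (t + 1)]
    linear_combination h + ih'

end Tri

/-- the cross term of the nested-slice certificate -/
noncomputable def Wtri : (n : ℕ) → (Fin n → ℕ) → ℕ → (Fin n → ℝ) → ℝ → ℝ → ℝ
  | 0, _, _, _, _, _ => 0
  | n + 1, c, q, φ, R, S =>
      ∑ t ∈ Finset.range (c 0 + 1),
          (if t ≤ q then Wtri n (Fin.tail c) (q - t) (Fin.tail φ)
            (Tri.frR c q φ R S t) (Tri.frS c q φ R S t) else 0)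
        + ∑ t ∈ Finset.range (c 0),
            (if t ≤ q then ((Lev (Fin.tail c) (q - t)).card : ℝ)
              * ((R - Tri.frR c q φ R S t) * (φ 0 - (R - Tri.frR c q φ R S t))) else 0)

namespace Tri

/-- a sum over an initial segment written with a condition -/
theorem sum_range_ite_le (f : ℕ → ℝ) {q m : ℕ} (h : q ≤ m) :
    ∑ t ∈ Finset.range (m + 1), (if t ≤ q then f t else 0) = ∑ t ∈ Finset.range (q + 1), f t := by
  rw [← Finset.sum_filter]
  apply Finset.sum_congr _ (fun _ _ => rfl)
  ext t
  rw [Finset.mem_filter, Finset.mem_range, Finset.mem_range]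
  omega

end Tri

/-- **The nested-slice certificate exists** for every compatible frame, with cross term
`Wtri n c q φ R S`. -/
theorem boxCertGe_tri : ∀ (n : ℕ) (c : Fin n → ℕ) (q : ℕ) (φ : Fin n → ℝ) (R S : ℝ),
    ((Lev c q).card : ℝ) * R + ((Lev c (q + 1)).card : ℝ) * S = boxMass c q φ →
    BoxCertGe c q φ R S (Wtri n c q φ R S) := by
  intro n
  induction n with
  | zero =>
    intro c q φ R S h
    rw [boxCertGe_zero]
    refine ⟨fun hq => ?_, le_refl _⟩
    subst hq
    have h1 : (Lev c (0 + 1)) = ∅ := by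
      rw [Finset.eq_empty_iff_forall_notMem]
      intro y hy
      rw [mem_Lev] at hy
      have := hy.2
      simp at this
    have h2 : boxMass c 0 φ = 0 := by
      unfold boxMass
      apply Finset.sum_eq_zero
      intro u _
      apply Finset.sum_eq_zero
      intro j _
      exact Fin.elim0 j
    rw [card_Lev_zero, h1, h2] at h
    simpa using h
  | succ n ih =>
    intro c q φ R S h
    -- the slicing identities
    have hA := card_Lev_succ c q
    have hB := card_Lev_succ c (q + 1)
    have hT := boxMass_succ c q φ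
    have hAr : ((Lev c q).card : ℝ) = ∑ t ∈ Finset.range (c 0 + 1),
        if t ≤ q then ((Lev (Fin.tail c) (q - t)).card : ℝ) else 0 := by
      rw [hA, Nat.cast_sum]
      apply Finset.sum_congr rfl
      intro t _
      by_cases htq : t ≤ q
      · rw [if_pos htq, if_pos htq]
      · rw [if_neg htq, if_neg htq, Nat.cast_zero]
    have hBr : ((Lev c (q + 1)).card : ℝ) = ∑ t ∈ Finset.range (c 0 + 1),
        if t ≤ q + 1 then ((Lev (Fin.tail c) (q + 1 - t)).card : ℝ) else 0 := by
      rw [hB, Nat.cast_sum]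
      apply Finset.sum_congr rfl
      intro t _
      by_cases htq : t ≤ q + 1
      · rw [if_pos htq, if_pos htq]
      · rw [if_neg htq, if_neg htq, Nat.cast_zero]
    have hcons := boxCertGe_cons_of_nonempty c q φ R S
      (fun t => R - Tri.frR c q φ R S t) (Tri.frR c q φ R S) (Tri.frS c q φ R S)
      (fun t => Wtri n (Fin.tail c) (q - t) (Fin.tail φ)
        (Tri.frR c q φ R S t) (Tri.frS c q φ R S t))
      ?_ ?_ ?_ ?_ ?_ ?_
    · exact hcons
    · intro t _ _
      ring
    · -- closing identity at the top slice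
      intro hcq hne
      have hcum := Tri.cum c q φ R S (c 0) hcq
      have ha0 : ((Lev (Fin.tail c) (q - c 0)).card : ℝ) ≠ 0 :=
        Nat.cast_ne_zero.mpr (Finset.card_ne_zero.mpr hne)
      -- the global quantities
      have e1 : ((Lev c q).card : ℝ) = ∑ s ∈ Finset.range (c 0),
          ((Lev (Fin.tail c) (q - s)).card : ℝ) + ((Lev (Fin.tail c) (q - c 0)).card : ℝ) := by
        rw [hAr, Finset.sum_range_succ, if_pos hcq]
        congr 1
        apply Finset.sum_congr rfl
        intro t ht
        rw [if_pos (by have := Finset.mem_range.mp ht; omega)]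
      have e2 : ((Lev c (q + 1)).card : ℝ) = ((Lev (Fin.tail c) (q + 1)).card : ℝ)
          + ∑ s ∈ Finset.range (c 0), ((Lev (Fin.tail c) (q - s)).card : ℝ) := by
        rw [hBr, Finset.sum_range_succ', if_pos (Nat.zero_le _), Nat.sub_zero, add_comm]
        congr 1
        apply Finset.sum_congr rfl
        intro t ht
        rw [if_pos (by have := Finset.mem_range.mp ht; omega)]
        have : q + 1 - (t + 1) = q - t := by omega
        rw [this]
      have e3 : boxMass c q φ = ∑ s ∈ Finset.range (c 0 + 1),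
            boxMass (Fin.tail c) (q - s) (Fin.tail φ)
          + φ 0 * ∑ s ∈ Finset.range (c 0), ((Lev (Fin.tail c) (q - s)).card : ℝ) := by
        rw [hT]
        have hstep : ∀ t ∈ Finset.range (c 0 + 1), (if t ≤ q then
            (boxMass (Fin.tail c) (q - t) (Fin.tail φ)
              + if t < c 0 then ((Lev (Fin.tail c) (q - t)).card : ℝ) * φ 0 else 0) else 0)
            = boxMass (Fin.tail c) (q - t) (Fin.tail φ)
              + (if t < c 0 then φ 0 * ((Lev (Fin.tail c) (q - t)).card : ℝ) else 0) := by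
          intro t ht
          rw [if_pos (by have := Finset.mem_range.mp ht; omega)]
          by_cases htlt : t < c 0
          · rw [if_pos htlt, if_pos htlt, mul_comm]
          · rw [if_neg htlt, if_neg htlt]
        rw [Finset.sum_congr rfl hstep, Finset.sum_add_distrib]
        congr 1
        rw [Finset.sum_range_succ, if_neg (lt_irrefl _), add_zero, Finset.mul_sum]
        apply Finset.sum_congr rfl
        intro t ht
        rw [if_pos (Finset.mem_range.mp ht)]
      rw [e1, e2, e3] at h
      have hkey : ((Lev (Fin.tail c) (q - c 0)).card : ℝ) * Tri.frR c q φ R S (c 0)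
          = ((Lev (Fin.tail c) (q - c 0)).card : ℝ) * R := by
        linear_combination hcum - h
      exact mul_left_cancel₀ ha0 hkey
    · intro _
      rfl
    · intro t _ _ _
      show Tri.frS c q φ R S (t + 1) = S - (φ 0 - (R - Tri.frR c q φ R S t))
      rw [Tri.frS_succ]
      ring
    · -- closing identity when the level is below the first cap
      intro hqc
      have hcum := Tri.cum c q φ R S q (le_refl q)
      have hqq : q - q = 0 := Nat.sub_self q
      have ha1 : ((Lev (Fin.tail c) (q - q)).card : ℝ) = 1 := by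
        rw [hqq, card_Lev_zero, Nat.cast_one]
      have e1 : ((Lev c q).card : ℝ) = ∑ s ∈ Finset.range q,
          ((Lev (Fin.tail c) (q - s)).card : ℝ) + ((Lev (Fin.tail c) (q - q)).card : ℝ) := by
        rw [hAr, Tri.sum_range_ite_le _ (le_of_lt hqc), Finset.sum_range_succ]
      have e2 : ((Lev c (q + 1)).card : ℝ) = ((Lev (Fin.tail c) (q + 1)).card : ℝ)
          + (∑ s ∈ Finset.range q, ((Lev (Fin.tail c) (q - s)).card : ℝ)
            + ((Lev (Fin.tail c) (q - q)).card : ℝ)) := by
        rw [hBr, Tri.sum_range_ite_le _ (by omega : q + 1 ≤ c 0), Finset.sum_range_succ',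
          Nat.sub_zero, add_comm, ← Finset.sum_range_succ (fun s =>
            ((Lev (Fin.tail c) (q - s)).card : ℝ)) q]
        congr 1
        apply Finset.sum_congr rfl
        intro t _
        have : q + 1 - (t + 1) = q - t := by omega
        rw [this]
      have e3 : boxMass c q φ = ∑ s ∈ Finset.range (q + 1),
            boxMass (Fin.tail c) (q - s) (Fin.tail φ)
          + φ 0 * (∑ s ∈ Finset.range q, ((Lev (Fin.tail c) (q - s)).card : ℝ)
            + ((Lev (Fin.tail c) (q - q)).card : ℝ)) := by
        rw [hT, Tri.sum_range_ite_le _ (le_of_lt hqc)]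
        have hstep : ∀ t ∈ Finset.range (q + 1),
            (boxMass (Fin.tail c) (q - t) (Fin.tail φ)
              + if t < c 0 then ((Lev (Fin.tail c) (q - t)).card : ℝ) * φ 0 else 0)
            = boxMass (Fin.tail c) (q - t) (Fin.tail φ)
              + φ 0 * ((Lev (Fin.tail c) (q - t)).card : ℝ) := by
          intro t ht
          rw [if_pos (by have := Finset.mem_range.mp ht; omega), mul_comm]
        rw [Finset.sum_congr rfl hstep, Finset.sum_add_distrib, ← Finset.mul_sum,
          Finset.sum_range_succ (fun s => ((Lev (Fin.tail c) (q - s)).card : ℝ)) q]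
      rw [e1, e2, e3, ha1] at h
      rw [ha1] at hcum
      show φ 0 - (R - Tri.frR c q φ R S q) = S
      linear_combination hcum - h
    · intro t _ _
      exact ih (Fin.tail c) (q - t) (Fin.tail φ) _ _ (Tri.slice_compat c q φ R S t)

/-- **Reduction of the three-row inequality for a last row of sum one to the positivity of
the explicit recursion `Wtri`.** -/
theorem threeRow_of_tri {n : ℕ} (r : Fin 3 → ℕ) (c : Fin n → ℕ) (hr : r 2 = 1)
    (hW : ∀ φ : Fin n → ℝ, boxMass c (r 0) φ = 0 → 0 ≤ Wtri n c (r 0) φ 0 0)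
    (f : CT 3 n r c → ℝ) :
    ∑ q ∈ (univ : Finset (Fin 3)).powersetCard 2, ip f (R q f)
      ≤ 2 * ip f f + ip f (R univ f) := by
  refine threeRow_of_boxCert r c hr ?_ f
  intro φ hφ
  have h0 : boxMass c (r 0) φ = 0 := hφ
  refine boxCert_of_ge (boxCertGe_tri n c (r 0) φ 0 0 ?_) (hW φ h0)
  rw [h0]
  ring

end Vale.Agent.Lib.P328.RP
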