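import Mathlib
import Vale.Agent.Lib.P328.RP.UnitRow

/-!
P328: a crude gap for three rows whose last row has sum at most one.

For `r 2 ≤ 1`, every `c` and every `f : CT 3 n r c → ℝ`,

  `ip f f - ip f (R univ f) ≤ (4 * n + 1) * ∑ q ∈ powersetCard 2 univ, (ip f f - ip f (R q f))`:

the variance of `f` is at most `4 n + 1` times the sum of the three row-pair resampling forms.

Proof for `r 2 = 1`.  Write `φ` for the conditional expectation of `f` given the last row (a
function of the column `J` of its unit) and `f0 = f - φ`.  Given the first row, or given the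
second row, there are at most `n` tables, one for each admissible `J`; for any two tables
`x`, `y` there is a table with the unit column of `y` that shares its first or its second row
with `x`.  Writing variances as sums over pairs this gives
`Var φ ≤ n * (|φ - E[φ | row 0]|^2 + |φ - E[φ | row 1]|^2)`, and the triangle inequality
passes from `φ` to `f` at the cost of `|f0|^2`.

* `CrudeUnit.pair_total`, `CrudeUnit.pair_le`, `CrudeUnit.pair_univ` : variances as pair sums.
* `CrudeUnit.exists_link`, `CrudeUnit.card_fibre_le` : the two facts about tables.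
* `CrudeUnit.key` : the inequality for functions of the unit column.
* `crude_unit_gap` : the statement.
-/

namespace Vale.Agent.Lib.P328.RP

open Finset
open Vale.Agent.Lib.P335.Bip

namespace CrudeUnit

section pairs

variable {Ω K : Type*} [Fintype Ω] [DecidableEq K] (κ : Ω → K)

/-- the deviations from a conditional expectation add up to zero on every fibre -/
theorem sum_fibre_dev (φ : Ω → ℝ) (x : Ω) :
    ∑ y ∈ univ.filter (fun y => κ y = κ x), (φ y - cexp κ φ y) = 0 := by
  have h1 : ∀ y ∈ univ.filter (fun y => κ y = κ x), φ y - cexp κ φ y = φ y - cexp κ φ x := by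
    intro y hy
    rw [cexp_congr κ (Finset.mem_filter.mp hy).2 φ]
  have hpos := fib_card_pos κ x
  rw [Finset.sum_congr rfl h1, Finset.sum_sub_distrib, Finset.sum_const, nsmul_eq_mul,
    cexp_apply, mul_div_cancel₀ _ hpos.ne', sub_self]

/-- the sum of the squared differences over a fibre -/
theorem pair_fibre (φ : Ω → ℝ) (x : Ω) :
    ∑ y ∈ univ.filter (fun y => κ y = κ x), (φ x - φ y) ^ 2
      = ((univ.filter (fun y => κ y = κ x)).card : ℝ) * (φ x - cexp κ φ x) ^ 2
        + ∑ y ∈ univ.filter (fun y => κ y = κ x), (φ y - cexp κ φ y) ^ 2 := by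
  have h1 : ∀ y ∈ univ.filter (fun y => κ y = κ x), (φ x - φ y) ^ 2
      = (φ x - cexp κ φ x) ^ 2 - 2 * (φ x - cexp κ φ x) * (φ y - cexp κ φ y)
        + (φ y - cexp κ φ y) ^ 2 := by
    intro y hy
    rw [cexp_congr κ (Finset.mem_filter.mp hy).2 φ]
    ring
  rw [Finset.sum_congr rfl h1, Finset.sum_add_distrib, Finset.sum_sub_distrib, Finset.sum_const,
    nsmul_eq_mul, ← Finset.mul_sum, sum_fibre_dev, mul_zero, sub_zero]

/-- the sum of the squared differences over all pairs in a common fibre -/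
theorem pair_total (φ : Ω → ℝ) :
    ∑ x, ∑ y ∈ univ.filter (fun y => κ y = κ x), (φ x - φ y) ^ 2
      = 2 * ∑ x, ((univ.filter (fun y => κ y = κ x)).card : ℝ) * (φ x - cexp κ φ x) ^ 2 := by
  rw [Finset.sum_congr rfl (fun x _ => pair_fibre κ φ x), Finset.sum_add_distrib]
  have h2 : ∑ x, ∑ y ∈ univ.filter (fun y => κ y = κ x), (φ y - cexp κ φ y) ^ 2
      = ∑ x, ((univ.filter (fun y => κ y = κ x)).card : ℝ) * (φ x - cexp κ φ x) ^ 2 := by
    have e1 : ∀ x ∈ (univ : Finset Ω),
        ∑ y ∈ univ.filter (fun y => κ y = κ x), (φ y - cexp κ φ y) ^ 2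
          = ∑ y, if κ y = κ x then (φ y - cexp κ φ y) ^ 2 else 0 :=
      fun x _ => Finset.sum_filter _ _
    rw [Finset.sum_congr rfl e1, Finset.sum_comm]
    apply Finset.sum_congr rfl
    intro y _
    rw [← Finset.sum_filter, Finset.sum_const, nsmul_eq_mul]
    have hfil : univ.filter (fun x => κ y = κ x) = univ.filter (fun x => κ x = κ y) :=
      Finset.filter_congr (fun z _ => eq_comm)
    rw [hfil]
  rw [h2]
  ring

/-- fibres with at most `N` elements: the pair sum is at most `2 N` times the squared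
distance to the conditional expectation -/
theorem pair_le (φ : Ω → ℝ) (N : ℕ)
    (hN : ∀ x, (univ.filter (fun y => κ y = κ x)).card ≤ N) :
    ∑ x, ∑ y ∈ univ.filter (fun y => κ y = κ x), (φ x - φ y) ^ 2
      ≤ 2 * ((N : ℝ) * (ip φ φ - ip φ (cexp κ φ))) := by
  rw [pair_total, ← ip_sub_cexp, ip_eq_sum_sq]
  apply mul_le_mul_of_nonneg_left _ (by norm_num)
  rw [Finset.mul_sum]
  apply Finset.sum_le_sum
  intro x _
  rw [Pi.sub_apply]
  exact mul_le_mul_of_nonneg_right (by exact_mod_cast hN x) (sq_nonneg _)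

/-- for a constant map the pair sum is twice the cardinality times the variance -/
theorem pair_univ (hκ : ∀ x y, κ x = κ y) (φ : Ω → ℝ) :
    ∑ x, ∑ y, (φ x - φ y) ^ 2
      = 2 * ((Fintype.card Ω : ℝ) * (ip φ φ - ip φ (cexp κ φ))) := by
  have hfil : ∀ x, univ.filter (fun y => κ y = κ x) = univ :=
    fun x => Finset.filter_true_of_mem (fun y _ => hκ y x)
  have h := pair_total κ φ
  have e1 : ∀ x ∈ (univ : Finset Ω),
      ∑ y ∈ univ.filter (fun y => κ y = κ x), (φ x - φ y) ^ 2 = ∑ y, (φ x - φ y) ^ 2 := by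
    intro x _
    rw [hfil x]
  have e2 : ∀ x ∈ (univ : Finset Ω),
      ((univ.filter (fun y => κ y = κ x)).card : ℝ) * (φ x - cexp κ φ x) ^ 2
        = (Fintype.card Ω : ℝ) * (φ x - cexp κ φ x) ^ 2 := by
    intro x _
    rw [hfil x, Finset.card_univ]
  rw [Finset.sum_congr rfl e1, Finset.sum_congr rfl e2, ← Finset.mul_sum] at h
  rw [h, ← ip_sub_cexp, ip_eq_sum_sq]
  rfl

/-- the squared norm of a difference -/
theorem ip_sub_le (u v : Ω → ℝ) : ip (u - v) (u - v) ≤ 2 * ip u u + 2 * ip v v := by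
  have h := ip_self_nonneg (u + v)
  rw [ip_add_left, ip_add_right, ip_add_right, ip_comm v u] at h
  rw [ip_sub_left, ip_sub_right, ip_sub_right, ip_comm v u]
  linarith

end pairs

variable {n : ℕ} {r : Fin 3 → ℕ} {c : Fin n → ℕ}

/-- the fibres of the resampling of all rows but `a` -/
theorem mask_erase_iff (a : Fin 3) (x y : CT 3 n r c) :
    mask (univ.erase a) y.1 = mask (univ.erase a) x.1 ↔ y.1 a = x.1 a := by
  rw [mask_eq_iff]
  constructor
  · intro h
    exact h a (Finset.notMem_erase a univ)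
  · intro h i hi
    have hia : i = a := by
      by_contra hne
      exact hi (Finset.mem_erase.mpr ⟨hne, Finset.mem_univ i⟩)
    rw [hia]
    exact h

/-- at most `n` tables share a given first row, or a given second row -/
theorem card_fibre_le (hr : r 2 = 1) (a : Fin 3) (ha : a ≠ 2) (x : CT 3 n r c) :
    (univ.filter (fun y : CT 3 n r c =>
      mask (univ.erase a) y.1 = mask (univ.erase a) x.1)).card ≤ n := by
  have h1 : (univ.filter (fun y : CT 3 n r c =>
      mask (univ.erase a) y.1 = mask (univ.erase a) x.1)).card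
      ≤ (univ : Finset (Fin n)).card := by
    apply Finset.card_le_card_of_injOn (fun y => UnitRow.ucol hr y)
    · intro y _
      exact Finset.mem_coe.mpr (Finset.mem_univ _)
    · intro y hy z hz hyz
      have hy' := (mask_erase_iff a x y).mp (Finset.mem_filter.mp (Finset.mem_coe.mp hy)).2
      have hz' := (mask_erase_iff a x z).mp (Finset.mem_filter.mp (Finset.mem_coe.mp hz)).2
      exact UnitRow.ext_of hr a ha y z (hy'.trans hz'.symm) hyz
  rw [Finset.card_univ, Fintype.card_fin] at h1
  exact h1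

/-- for two tables `x`, `y` there is a table with the unit column of `y` that shares its first
or its second row with `x` -/
theorem exists_link (hr : r 2 = 1) (x y : CT 3 n r c) :
    ∃ x' : CT 3 n r c, UnitRow.ucol hr x' = UnitRow.ucol hr y ∧
      (x'.1 0 = x.1 0 ∨ x'.1 1 = x.1 1) := by
  by_cases h : x.1 0 (UnitRow.ucol hr y) < c (UnitRow.ucol hr y)
  · obtain ⟨x', h1, h2⟩ := UnitRow.exists_table hr 0 (by decide) x _ h
    exact ⟨x', h2, Or.inl h1⟩
  · have hx := UnitRow.col3 x (UnitRow.ucol hr y)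
    have hy := UnitRow.col3 y (UnitRow.ucol hr y)
    have hy1 := UnitRow.ucol_one hr y
    have h' : x.1 1 (UnitRow.ucol hr y) < c (UnitRow.ucol hr y) := by omega
    obtain ⟨x', h1, h2⟩ := UnitRow.exists_table hr 1 (by decide) x _ h'
    exact ⟨x', h2, Or.inr h1⟩

/-- comparison of the pair sums at one table -/
theorem pair_compare (hr : r 2 = 1) (φ : CT 3 n r c → ℝ)
    (hφ : ∀ x y : CT 3 n r c, UnitRow.ucol hr x = UnitRow.ucol hr y → φ x = φ y)
    (x : CT 3 n r c) :
    ∑ y, (φ x - φ y) ^ 2
      ≤ (Fintype.card (CT 3 n r c) : ℝ)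
        * (∑ y ∈ univ.filter (fun y : CT 3 n r c =>
              mask (univ.erase 0) y.1 = mask (univ.erase 0) x.1), (φ x - φ y) ^ 2
          + ∑ y ∈ univ.filter (fun y : CT 3 n r c =>
              mask (univ.erase 1) y.1 = mask (univ.erase 1) x.1), (φ x - φ y) ^ 2) := by
  have hS0 : 0 ≤ ∑ y ∈ univ.filter (fun y : CT 3 n r c =>
      mask (univ.erase 0) y.1 = mask (univ.erase 0) x.1), (φ x - φ y) ^ 2 :=
    Finset.sum_nonneg (fun _ _ => sq_nonneg _)
  have hS1 : 0 ≤ ∑ y ∈ univ.filter (fun y : CT 3 n r c =>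
      mask (univ.erase 1) y.1 = mask (univ.erase 1) x.1), (φ x - φ y) ^ 2 :=
    Finset.sum_nonneg (fun _ _ => sq_nonneg _)
  have hterm : ∀ y ∈ (univ : Finset (CT 3 n r c)), (φ x - φ y) ^ 2
      ≤ ∑ y ∈ univ.filter (fun y : CT 3 n r c =>
            mask (univ.erase 0) y.1 = mask (univ.erase 0) x.1), (φ x - φ y) ^ 2
        + ∑ y ∈ univ.filter (fun y : CT 3 n r c =>
            mask (univ.erase 1) y.1 = mask (univ.erase 1) x.1), (φ x - φ y) ^ 2 := by
    intro y _
    obtain ⟨x', h1, h2⟩ := exists_link hr x y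
    rw [← hφ x' y h1]
    rcases h2 with h2 | h2
    · have hmem : x' ∈ univ.filter (fun y : CT 3 n r c =>
          mask (univ.erase 0) y.1 = mask (univ.erase 0) x.1) :=
        Finset.mem_filter.mpr ⟨Finset.mem_univ _, (mask_erase_iff 0 x x').mpr h2⟩
      have h3 := Finset.single_le_sum (f := fun y => (φ x - φ y) ^ 2)
        (fun _ _ => sq_nonneg _) hmem
      linarith
    · have hmem : x' ∈ univ.filter (fun y : CT 3 n r c =>
          mask (univ.erase 1) y.1 = mask (univ.erase 1) x.1) :=
        Finset.mem_filter.mpr ⟨Finset.mem_univ _, (mask_erase_iff 1 x x').mpr h2⟩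
      have h3 := Finset.single_le_sum (f := fun y => (φ x - φ y) ^ 2)
        (fun _ _ => sq_nonneg _) hmem
      linarith
  refine le_trans (Finset.sum_le_sum hterm) (le_of_eq ?_)
  rw [Finset.sum_const, Finset.card_univ, nsmul_eq_mul]

/-- **Functions of the unit column.**  Their variance is at most `n` times the sum of their
squared distances to the functions of the first row and to the functions of the second
row. -/
theorem key (hr : r 2 = 1) (φ : CT 3 n r c → ℝ)
    (hφ : ∀ x y : CT 3 n r c, UnitRow.ucol hr x = UnitRow.ucol hr y → φ x = φ y) :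
    ip φ φ - ip φ (R univ φ)
      ≤ (n : ℝ) * ((ip φ φ - ip φ (R (univ.erase 0) φ))
        + (ip φ φ - ip φ (R (univ.erase 1) φ))) := by
  rcases isEmpty_or_nonempty (CT 3 n r c) with he | hne
  · have hz : ∀ f1 f2 : CT 3 n r c → ℝ, ip f1 f2 = 0 := by
      intro f1 f2
      unfold ip
      rw [Finset.univ_eq_empty, Finset.sum_empty]
    rw [hz, hz, hz, hz]
    simp
  have hZ : (0 : ℝ) < (Fintype.card (CT 3 n r c) : ℝ) := by exact_mod_cast Fintype.card_pos
  have h1 : ∑ x : CT 3 n r c, ∑ y, (φ x - φ y) ^ 2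
      = 2 * ((Fintype.card (CT 3 n r c) : ℝ) * (ip φ φ - ip φ (R univ φ))) :=
    pair_univ (fun x : CT 3 n r c => mask univ x.1)
      (fun x y => (mask_eq_iff univ x.1 y.1).mpr
        (fun i hi => absurd (Finset.mem_univ i) hi)) φ
  have h3 : ∑ x : CT 3 n r c, ∑ y ∈ univ.filter (fun y : CT 3 n r c =>
        mask (univ.erase 0) y.1 = mask (univ.erase 0) x.1), (φ x - φ y) ^ 2
      ≤ 2 * ((n : ℝ) * (ip φ φ - ip φ (R (univ.erase 0) φ))) :=
    pair_le (fun x : CT 3 n r c => mask (univ.erase 0) x.1) φ n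
      (card_fibre_le hr 0 (by decide))
  have h4 : ∑ x : CT 3 n r c, ∑ y ∈ univ.filter (fun y : CT 3 n r c =>
        mask (univ.erase 1) y.1 = mask (univ.erase 1) x.1), (φ x - φ y) ^ 2
      ≤ 2 * ((n : ℝ) * (ip φ φ - ip φ (R (univ.erase 1) φ))) :=
    pair_le (fun x : CT 3 n r c => mask (univ.erase 1) x.1) φ n
      (card_fibre_le hr 1 (by decide))
  have h2 : ∑ x : CT 3 n r c, ∑ y, (φ x - φ y) ^ 2
      ≤ (Fintype.card (CT 3 n r c) : ℝ)
        * (∑ x : CT 3 n r c, ∑ y ∈ univ.filter (fun y : CT 3 n r c =>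
              mask (univ.erase 0) y.1 = mask (univ.erase 0) x.1), (φ x - φ y) ^ 2
          + ∑ x : CT 3 n r c, ∑ y ∈ univ.filter (fun y : CT 3 n r c =>
              mask (univ.erase 1) y.1 = mask (univ.erase 1) x.1), (φ x - φ y) ^ 2) := by
    refine le_trans (Finset.sum_le_sum (fun x _ => pair_compare hr φ hφ x)) (le_of_eq ?_)
    rw [← Finset.mul_sum, Finset.sum_add_distrib]
  have h5 : (Fintype.card (CT 3 n r c) : ℝ) * (2 * (ip φ φ - ip φ (R univ φ)))
      ≤ (Fintype.card (CT 3 n r c) : ℝ)
        * (2 * ((n : ℝ) * ((ip φ φ - ip φ (R (univ.erase 0) φ))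
          + (ip φ φ - ip φ (R (univ.erase 1) φ))))) := by
    have h6 := mul_le_mul_of_nonneg_left (add_le_add h3 h4) hZ.le
    have h7 := le_trans h2 h6
    rw [h1] at h7
    linarith
  have h8 := le_of_mul_le_mul_left h5 hZ
  linarith

/-- the three pairs of rows -/
theorem sum_pairs (F : Finset (Fin 3) → ℝ) :
    ∑ q ∈ (univ : Finset (Fin 3)).powersetCard 2, F q
      = F (univ.erase 0) + F (univ.erase 1) + F (univ.erase 2) := by
  rw [Rows.pairs_eq, Finset.sum_image (fun a _ b _ h => Rows.erase_inj h), Fin.sum_univ_three]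

/-- the case of a unit row -/
theorem gap_one (hr : r 2 = 1) (f : CT 3 n r c → ℝ) :
    ip f f - ip f (R univ f)
      ≤ (4 * (n : ℝ) + 1) * ((ip f f - ip f (R (univ.erase 0) f))
        + (ip f f - ip f (R (univ.erase 1) f)) + (ip f f - ip f (R (univ.erase 2) f))) := by
  -- the conditional expectation given the last row, and the rest
  obtain ⟨φ, hφdef⟩ : ∃ φ : CT 3 n r c → ℝ, φ = R (univ.erase 2) f := ⟨_, rfl⟩
  obtain ⟨f0, hf0def⟩ : ∃ f0 : CT 3 n r c → ℝ, f0 = f - φ := ⟨_, rfl⟩
  have hφ : ∀ x y : CT 3 n r c, UnitRow.ucol hr x = UnitRow.ucol hr y → φ x = φ y := by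
    intro x y hxy
    rw [hφdef]
    apply R_congr
    intro i hi
    have hi2 : i = 2 := by
      by_contra hne
      exact hi (Finset.mem_erase.mpr ⟨hne, Finset.mem_univ i⟩)
    rw [hi2]
    funext l
    rw [UnitRow.row2_apply hr x l, UnitRow.row2_apply hr y l, hxy]
  have hkey := key hr φ hφ
  -- norms
  have hf0 : ip f0 f0 = ip f f - ip f (R (univ.erase 2) f) := by
    rw [hf0def, hφdef]
    exact ip_sub_cexp _ f
  have hφφ : ip φ φ = ip f (R (univ.erase 2) f) := by
    rw [hφdef]
    exact Rows.ip_R_self _ f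
  have hUφ : ip φ (R univ φ) = ip f (R univ f) := by
    rw [hφdef, R_T_R_of_subset (Finset.subset_univ _), Rows.ip_R_R_univ]
  have hA : ∀ a : Fin 3, 0 ≤ ip f f - ip f (R (univ.erase a) f) := by
    intro a
    have h := ip_cexp_le (fun x : CT 3 n r c => mask (univ.erase a) x.1) f
    have h' : ip f (R (univ.erase a) f) ≤ ip f f := h
    linarith
  have hB : ∀ a : Fin 3, ip φ φ - ip φ (R (univ.erase a) φ)
      ≤ 2 * (ip f f - ip f (R (univ.erase a) f)) + 2 * ip f0 f0 := by
    intro a
    have e1 : φ - R (univ.erase a) φ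
        = (f - R (univ.erase a) f) - (f0 - R (univ.erase a) f0) := by
      rw [hf0def, map_sub]
      abel
    have e2 : ip (φ - R (univ.erase a) φ) (φ - R (univ.erase a) φ)
        = ip φ φ - ip φ (R (univ.erase a) φ) := ip_sub_cexp _ φ
    have e3 : ip (f - R (univ.erase a) f) (f - R (univ.erase a) f)
        = ip f f - ip f (R (univ.erase a) f) := ip_sub_cexp _ f
    have e4 : ip (f0 - R (univ.erase a) f0) (f0 - R (univ.erase a) f0)
        = ip f0 f0 - ip f0 (R (univ.erase a) f0) := ip_sub_cexp _ f0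
    have e5 : 0 ≤ ip f0 (R (univ.erase a) f0) :=
      ip_cexp_self_nonneg (fun x : CT 3 n r c => mask (univ.erase a) x.1) f0
    have e6 := ip_sub_le (f - R (univ.erase a) f) (f0 - R (univ.erase a) f0)
    rw [← e1, e2, e3, e4] at e6
    linarith
  have hB0 := hB 0
  have hB1 := hB 1
  have hA0 := hA 0
  have hA1 := hA 1
  have hn : (0 : ℝ) ≤ (n : ℝ) := Nat.cast_nonneg n
  have hf0nn : 0 ≤ ip f0 f0 := ip_self_nonneg f0
  rw [hφφ, hUφ] at hkey
  have h1 := mul_le_mul_of_nonneg_left (add_le_add hB0 hB1) hn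
  rw [hφφ] at h1
  nlinarith [mul_nonneg hn hA0, mul_nonneg hn hA1, mul_nonneg hn hf0nn]

/-- the case of a zero row -/
theorem gap_zero (hr : r 2 = 0) (f : CT 3 n r c → ℝ) :
    ip f f - ip f (R univ f)
      ≤ (4 * (n : ℝ) + 1) * ((ip f f - ip f (R (univ.erase 0) f))
        + (ip f f - ip f (R (univ.erase 1) f)) + (ip f f - ip f (R (univ.erase 2) f))) := by
  have hrow : ∀ (x : CT 3 n r c) (j : Fin n), x.1 2 j = 0 := by
    intro x j
    have h := entry_le x 2 j
    omega
  have h2 : R (univ.erase 2) f = R univ f := by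
    have h3 : R (univ : Finset (Fin 3)) (R (univ.erase 2) f) = R (univ.erase 2) f := by
      apply cexp_of_factor
      intro x y _
      apply R_congr
      intro i hi
      have hik : i = 2 := by
        by_contra hne
        exact hi (Finset.mem_erase.mpr ⟨hne, Finset.mem_univ i⟩)
      rw [hik]
      funext j
      rw [hrow x j, hrow y j]
    rw [← h3, R_T_R_of_subset (Finset.subset_univ _)]
  have hA : ∀ a : Fin 3, 0 ≤ ip f f - ip f (R (univ.erase a) f) := by
    intro a
    have h' : ip f (R (univ.erase a) f) ≤ ip f f :=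
      ip_cexp_le (fun x : CT 3 n r c => mask (univ.erase a) x.1) f
    linarith
  have hA0 := hA 0
  have hA1 := hA 1
  have hA2 := hA 2
  have hn : (0 : ℝ) ≤ (n : ℝ) := Nat.cast_nonneg n
  rw [← h2]
  nlinarith [mul_nonneg hn hA0, mul_nonneg hn hA1, mul_nonneg hn hA2]

end CrudeUnit

/-- **Crude gap for three rows whose last row has sum at most one.**  The variance of a
function on the tables is at most `4 n + 1` times the sum over the three pairs of rows of the
resampling forms. -/
theorem crude_unit_gap {n : ℕ} (r : Fin 3 → ℕ) (c : Fin n → ℕ) (hr : r 2 ≤ 1)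
    (f : CT 3 n r c → ℝ) :
    ip f f - ip f (R univ f)
      ≤ (4 * (n : ℝ) + 1)
        * ∑ q ∈ (univ : Finset (Fin 3)).powersetCard 2, (ip f f - ip f (R q f)) := by
  rw [CrudeUnit.sum_pairs (fun q => ip f f - ip f (R q f))]
  have h01 : r 2 = 0 ∨ r 2 = 1 := by omega
  rcases h01 with h0 | h1
  · exact CrudeUnit.gap_zero h0 f
  · exact CrudeUnit.gap_one h1 f

end Vale.Agent.Lib.P328.RP
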