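import Mathlib
import Vale.Agent.Lib.P328.RP.Transpose

/-!
P328: the heat bath on two-by-two blocks and transposition.

Transposing the tables turns the heat bath on two-by-two blocks of `CT m n r c` into the heat
bath on two-by-two blocks of `CT n m c r`; so the distance to the uniform law after `t` steps
from `x` is the distance after `t` steps from the transpose of `x` for the transposed margins.

* `Mixing22Tr.heatBath22_tr`, `Mixing22Tr.heatBath22_pow_tr` : the transition matrices.
* `tv22_tr` : the distances to the uniform law agree.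
* `mixing22_of_tr` : a bound for the transposed margins gives the bound for the margins.
-/

namespace Vale.Agent.Lib.P328.RP

open Finset
open Vale.Agent.Lib.P335.Bip

namespace Mixing22Tr

variable {m n : ℕ} {r : Fin m → ℕ} {c : Fin n → ℕ}

theorem mem_bfibre_tr (p : Finset (Fin m)) (q : Finset (Fin n)) (x y : CT m n r c) :
    tr y ∈ bfibre q p (tr x) ↔ y ∈ bfibre p q x := by
  rw [mem_bfibre, mem_bfibre]
  constructor
  · intro h i j hij
    exact h j i (fun hh => hij ⟨hh.2, hh.1⟩)
  · intro h j i hji
    exact h i j (fun hh => hji ⟨hh.2, hh.1⟩)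

theorem card_bfibre_tr (p : Finset (Fin m)) (q : Finset (Fin n)) (x : CT m n r c) :
    (bfibre q p (tr x)).card = (bfibre p q x).card := by
  symm
  apply Finset.card_equiv tr
  intro y
  exact (mem_bfibre_tr p q x y).symm

/-- the transition matrix of the transposed margins -/
theorem heatBath22_tr (x y : CT m n r c) :
    heatBath22 n m c r (tr x) (tr y) = heatBath22 m n r c x y := by
  unfold heatBath22
  rw [Finset.sum_comm, mul_comm ((n.choose 2 : ℕ) : ℝ) ((m.choose 2 : ℕ) : ℝ)]
  congr 1
  apply Finset.sum_congr rfl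
  intro p _
  apply Finset.sum_congr rfl
  intro q _
  rw [card_bfibre_tr]
  by_cases h : y ∈ bfibre p q x
  · rw [if_pos h, if_pos ((mem_bfibre_tr p q x y).mpr h)]
  · rw [if_neg h, if_neg (fun h' => h ((mem_bfibre_tr p q x y).mp h'))]

/-- the powers of the transition matrix of the transposed margins -/
theorem heatBath22_pow_tr (t : ℕ) : ∀ x y : CT m n r c,
    (heatBath22 n m c r ^ t) (tr x) (tr y) = (heatBath22 m n r c ^ t) x y := by
  induction t with
  | zero =>
    intro x y
    rw [pow_zero, pow_zero, Matrix.one_apply, Matrix.one_apply]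
    by_cases h : x = y
    · rw [if_pos h, if_pos (by rw [h])]
    · rw [if_neg h, if_neg (fun h' => h (tr.injective h'))]
  | succ t ih =>
    intro x y
    rw [pow_succ, pow_succ, Matrix.mul_apply, Matrix.mul_apply]
    rw [← Equiv.sum_comp tr (fun z' => (heatBath22 n m c r ^ t) (tr x) z'
      * heatBath22 n m c r z' (tr y))]
    apply Finset.sum_congr rfl
    intro z _
    rw [ih x z, heatBath22_tr z y]

end Mixing22Tr

/-- **Transposition.**  The distance to the uniform law after `t` steps of the heat bath on
two-by-two blocks is the same for a table and for its transpose. -/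
theorem tv22_tr {m n : ℕ} {r : Fin m → ℕ} {c : Fin n → ℕ} (x : CT m n r c) (t : ℕ) :
    (1 / 2) * ∑ y, |(heatBath22 m n r c ^ t) x y - 1 / (Fintype.card (CT m n r c) : ℝ)|
      = (1 / 2) * ∑ y', |(heatBath22 n m c r ^ t) (tr x) y'
          - 1 / (Fintype.card (CT n m c r) : ℝ)| := by
  have hcard : Fintype.card (CT n m c r) = Fintype.card (CT m n r c) :=
    (Fintype.card_congr tr).symm
  rw [← Equiv.sum_comp tr (fun y' => |(heatBath22 n m c r ^ t) (tr x) y'
    - 1 / (Fintype.card (CT n m c r) : ℝ)|), hcard]
  congr 1
  apply Finset.sum_congr rfl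
  intro y _
  rw [Mixing22Tr.heatBath22_pow_tr t x y]

/-- a bound for the transposed margins gives the bound for the margins -/
theorem mixing22_of_tr {m n : ℕ} {r : Fin m → ℕ} {c : Fin n → ℕ} (x : CT m n r c) (t : ℕ)
    (ε : ℝ)
    (h : (1 / 2) * ∑ y', |(heatBath22 n m c r ^ t) (tr x) y'
      - 1 / (Fintype.card (CT n m c r) : ℝ)| ≤ ε) :
    (1 / 2) * ∑ y, |(heatBath22 m n r c ^ t) x y - 1 / (Fintype.card (CT m n r c) : ℝ)| ≤ ε := by
  rw [tv22_tr x t]
  exact h

end Vale.Agent.Lib.P328.RP
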